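import Vale.Agent.P275.H341.Psh

/-!
# P275, row A6: multiplicative functionals and automorphisms at the elements of a family
-/

set_option linter.all false

namespace Vale.Agent.P275.H510

open scoped BigOperators
open Vale.Agent.P275.H341

variable {I : Type} (H : PSH I)

theorem deg_one : H.deg H.one = 0 :=
  (H.mem_lvl 0 _).1 (by rw [H.lvl_zero]; exact Finset.mem_singleton_self _)

theorem eq_one {a : I} (h : H.deg a = 0) : a = H.one := by
  have := (H.mem_lvl 0 a).2 h
  rw [H.lvl_zero] at this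
  exact Finset.mem_singleton.1 this

/-- the coefficients of a product of a list live in the degree of the list -/
theorem coef_deg (L : List I) (a : I) (h : H.coef L a ≠ 0) : H.deg a = (L.map H.deg).sum := by
  classical
  cases L with
  | nil =>
    simp only [PSH.coef] at h
    split_ifs at h with h1
    · rw [h1, deg_one]; rfl
    · exact absurd rfl h
  | cons b L =>
    simp only [PSH.coef] at h
    obtain ⟨y, hy, h1⟩ := Finset.exists_ne_zero_of_sum_ne_zero h
    have h2 := H.c_deg b y a (right_ne_zero_of_mul h1)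
    rw [h2, (H.mem_lvl _ _).1 hy]
    simp

/-- a multiplicative functional at the product of a list -/
theorem mult_list {D : I → ℂ} (hD : H.Mult D) (L : List I) :
    (L.map D).prod = ∑ a ∈ H.lvl (L.map H.deg).sum, (H.coef L a : ℂ) * D a := by
  classical
  induction L with
  | nil =>
    simp only [List.map_nil, List.prod_nil, List.sum_nil, H.lvl_zero, Finset.sum_singleton,
      PSH.coef, if_true, hD.1]
    simp
  | cons b L ih =>
    rw [List.map_cons, List.prod_cons, ih, Finset.mul_sum]
    have h1 : ∀ y ∈ H.lvl (L.map H.deg).sum, D b * ((H.coef L y : ℂ) * D y) =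
        ∑ a ∈ H.lvl ((b :: L).map H.deg).sum, (H.coef L y : ℂ) * ((H.c b y a : ℂ) * D a) := by
      intro y hy
      rw [← Finset.mul_sum, List.map_cons, List.sum_cons, ← (H.mem_lvl _ _).1 hy, ← hD.2 b y]
      ring
    rw [Finset.sum_congr rfl h1, Finset.sum_comm]
    refine Finset.sum_congr rfl fun a _ => ?_
    simp only [PSH.coef]
    push_cast
    rw [Finset.sum_mul]
    exact Finset.sum_congr rfl fun y _ => by ring

theorem chain_deg {p : I} {x : ℕ → I} (hx : H.Chain p x) (k : ℕ) : H.deg (x k) = k * H.deg p := by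
  induction k with
  | zero => rw [hx.zero, deg_one, zero_mul]
  | succ k ih =>
    have h1 := H.c_deg (x k) (x 1) (x (k + 1)) (by rw [hx.cself]; exact one_ne_zero)
    rw [h1, ih, hx.first]
    ring

theorem pt_sum {k : ℕ} {lam : Fin k → ℕ} (h : lam ∈ Pt k) : ∑ i, lam i = k :=
  Finset.Nat.mem_antidiagonalTuple.1 (Finset.mem_filter.1 h).1

theorem perm_sum {k : ℕ} {lam : Fin k → ℕ} (h : lam ∈ Pt k) (w : Equiv.Perm (Fin k))
    (hw : ∀ i : Fin k, (i : ℕ) ≤ lam i + w i) : ∑ i : Fin k, (lam i + w i - i) = k := by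
  have h1 : ∑ i : Fin k, (lam i + w i - i) + ∑ i : Fin k, (i : ℕ) = k + ∑ i : Fin k, (i : ℕ) := by
    rw [← Finset.sum_add_distrib]
    calc ∑ i : Fin k, (lam i + w i - i + i) = ∑ i : Fin k, (lam i + (w i : ℕ)) :=
          Finset.sum_congr rfl fun i _ => Nat.sub_add_cancel (hw i)
      _ = ∑ i : Fin k, lam i + ∑ i : Fin k, (w i : ℕ) := Finset.sum_add_distrib
      _ = k + ∑ i : Fin k, (i : ℕ) := by
          rw [pt_sum h, Equiv.sum_comp w (fun i : Fin k => (i : ℕ))]
  omega

theorem list_deg {p : I} {x : ℕ → I} (hx : H.Chain p x) {k : ℕ} {lam : Fin k → ℕ}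
    (h : lam ∈ Pt k) (w : Equiv.Perm (Fin k)) (hw : ∀ i : Fin k, (i : ℕ) ≤ lam i + w i) :
    ((List.ofFn fun i : Fin k => x (lam i + w i - i)).map H.deg).sum = k * H.deg p := by
  rw [List.map_ofFn, List.sum_ofFn]
  simp only [Function.comp, chain_deg H hx]
  rw [← Finset.sum_mul, perm_sum h w hw]

theorem jt_eq {D : I → ℂ} (hD : H.Mult D) {p : I} {x : ℕ → I} (hx : H.Chain p x) {k : ℕ}
    {lam : Fin k → ℕ} (h : lam ∈ Pt k) :
    jt (fun i => D (x i)) lam = ∑ a ∈ H.lvl (k * H.deg p), (H.jtc x lam a : ℂ) * D a := by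
  classical
  rw [jt, ← Matrix.det_transpose, Matrix.det_apply']
  have h1 : ∀ w : Equiv.Perm (Fin k),
      (∏ i : Fin k, (Matrix.of fun i j : Fin k =>
        if (i : ℕ) ≤ lam i + j then D (x (lam i + j - i)) else 0).transpose (w i) i) =
      if ∀ i : Fin k, (i : ℕ) ≤ lam i + w i then
        ∑ a ∈ H.lvl (k * H.deg p),
          (H.coef (List.ofFn fun i : Fin k => x (lam i + w i - i)) a : ℂ) * D a else 0 := by
    intro w
    split_ifs with hw
    · rw [← list_deg H hx h w hw, ← mult_list H hD, List.map_ofFn, List.prod_ofFn]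
      refine Finset.prod_congr rfl fun i _ => ?_
      simp only [Matrix.transpose_apply, Matrix.of_apply, Function.comp]
      rw [if_pos (hw i)]
    · push Not at hw
      obtain ⟨i, hi⟩ := hw
      refine Finset.prod_eq_zero (Finset.mem_univ i) ?_
      simp only [Matrix.transpose_apply, Matrix.of_apply]
      rw [if_neg (not_le.2 hi)]
  simp only [h1]
  calc ∑ w : Equiv.Perm (Fin k), ((Equiv.Perm.sign w : ℤ) : ℂ) *
        (if ∀ i : Fin k, (i : ℕ) ≤ lam i + w i then
          ∑ a ∈ H.lvl (k * H.deg p),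
            (H.coef (List.ofFn fun i : Fin k => x (lam i + w i - i)) a : ℂ) * D a else 0)
      = ∑ w : Equiv.Perm (Fin k), ∑ a ∈ H.lvl (k * H.deg p), ((Equiv.Perm.sign w : ℤ) : ℂ) *
        ((if ∀ i : Fin k, (i : ℕ) ≤ lam i + w i then
            (H.coef (List.ofFn fun i : Fin k => x (lam i + w i - i)) a : ℂ) else 0) * D a) := by
        refine Finset.sum_congr rfl fun w _ => ?_
        rw [← Finset.mul_sum]
        congr 1
        split_ifs with hw
        · rfl
        · simp
    _ = _ := by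
        rw [Finset.sum_comm]
        refine Finset.sum_congr rfl fun a _ => ?_
        simp only [PSH.jtc]
        push_cast
        rw [Finset.sum_mul]
        refine Finset.sum_congr rfl fun w _ => ?_
        split_ifs with hw
        · simp [mul_assoc]
        · simp

/-- a multiplicative functional at the elements of a family -/
theorem fam_mult {p : I} {x : ℕ → I} {s : (k : ℕ) → (Fin k → ℕ) → I} (hx : H.Chain p x)
    (hs : H.Fam p x s) {D : I → ℂ} (hD : H.Mult D) (k : ℕ) (lam : Fin k → ℕ) (h : lam ∈ Pt k) :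
    D (s k lam) = jt (fun i => D (x i)) lam := by
  rw [jt_eq H hD hx h, Finset.sum_eq_single (s k lam)]
  · rw [hs.jself k lam h]; simp
  · intro a _ ha
    rw [hs.jne k lam h a ha]; simp
  · intro h1
    exact absurd ((H.mem_lvl _ _).2 (hs.deg k lam h)) h1

theorem fam_unique {p : I} {x : ℕ → I} {s s' : (k : ℕ) → (Fin k → ℕ) → I}
    (hs : H.Fam p x s) (hs' : H.Fam p x s') (k : ℕ) (lam : Fin k → ℕ) (h : lam ∈ Pt k) :
    s' k lam = s k lam := by
  by_contra h1
  have h2 := hs.jne k lam h _ h1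
  rw [hs'.jself k lam h] at h2
  exact one_ne_zero h2

/-! ### Automorphisms -/

theorem aut_one (τ : H.Aut) : τ.t H.one = H.one := eq_one H (by rw [τ.deg, deg_one])

/-- the inverse automorphism -/
def inv (τ : H.Aut) : H.Aut where
  t := τ.t.symm
  deg i := by
    have := τ.deg (τ.t.symm i)
    rw [Equiv.apply_symm_apply] at this
    exact this.symm
  c a b x := by
    have := τ.c (τ.t.symm a) (τ.t.symm b) (τ.t.symm x)
    simp only [Equiv.apply_symm_apply] at this
    exact this.symm

theorem aut_pr (τ : H.Aut) {p : I} (hp : H.Pr p) : H.Pr (τ.t p) := by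
  refine ⟨by rw [τ.deg]; exact hp.1, fun a b h => ?_⟩
  have h1 : H.c (τ.t.symm a) (τ.t.symm b) p ≠ 0 := by
    rw [← τ.c]
    simpa using h
  rcases hp.2 _ _ h1 with h2 | h2
  · left
    rw [← aut_one H τ, ← h2, Equiv.apply_symm_apply]
  · right
    rw [← aut_one H τ, ← h2, Equiv.apply_symm_apply]

theorem aut_lvl (τ : H.Aut) (n : ℕ) (f : I → ℕ) :
    ∑ y ∈ H.lvl n, f y = ∑ y ∈ H.lvl n, f (τ.t y) := by
  classical
  refine (Finset.sum_bij (fun y _ => τ.t y) ?_ ?_ ?_ ?_).symm
  · intro y hy
    rw [H.mem_lvl] at hy ⊢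
    rw [τ.deg, hy]
  · intro a _ b _ h
    exact τ.t.injective h
  · intro b hb
    refine ⟨τ.t.symm b, ?_, τ.t.apply_symm_apply b⟩
    rw [H.mem_lvl] at hb ⊢
    exact ((inv H τ).deg b).trans hb
  · intro y _
    rfl

theorem aut_coef (τ : H.Aut) (L : List I) (a : I) : H.coef (L.map τ.t) (τ.t a) = H.coef L a := by
  classical
  induction L generalizing a with
  | nil =>
    simp only [PSH.coef, List.map_nil]
    have : τ.t a = H.one ↔ a = H.one := by
      constructor
      · intro h
        rw [← aut_one H τ] at h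
        exact τ.t.injective h
      · rintro rfl
        exact aut_one H τ
    simp only [this]
  | cons b L ih =>
    simp only [PSH.coef, List.map_cons]
    rw [aut_lvl H τ]
    have h1 : ((L.map τ.t).map H.deg).sum = (L.map H.deg).sum := by
      rw [List.map_map]
      congr 1
      refine List.map_congr_left fun y _ => ?_
      exact τ.deg y
    rw [h1]
    refine Finset.sum_congr rfl fun y _ => ?_
    rw [ih, τ.c]

theorem aut_jtc (τ : H.Aut) (x : ℕ → I) {k : ℕ} (lam : Fin k → ℕ) (a : I) :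
    H.jtc (fun i => τ.t (x i)) lam (τ.t a) = H.jtc x lam a := by
  simp only [PSH.jtc]
  refine Finset.sum_congr rfl fun w _ => ?_
  congr 1
  split_ifs with hw
  · have h1 : (List.ofFn fun i : Fin k => τ.t (x (lam i + w i - i))) =
        (List.ofFn fun i : Fin k => x (lam i + w i - i)).map τ.t := by
      rw [List.map_ofFn]; rfl
    rw [h1, aut_coef]
  · rfl

theorem aut_chain (τ : H.Aut) {p : I} {x : ℕ → I} (hx : H.Chain p x) :
    H.Chain (τ.t p) (fun i => τ.t (x i)) := by
  refine ⟨?_, ?_, ?_, ?_⟩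
  · show τ.t (x 0) = H.one
    rw [hx.zero, aut_one]
  · show τ.t (x 1) = τ.t p
    rw [hx.first]
  · intro i j
    show H.c (τ.t (x i)) (τ.t (x j)) (τ.t (x (i + j))) = 1
    rw [τ.c, hx.cself]
  · intro k a b h
    have h1 : H.c (τ.t.symm a) (τ.t.symm b) (x k) ≠ 0 := by
      rw [← τ.c]
      simpa using h
    obtain ⟨i, j, hij, ha, hb⟩ := hx.cne k _ _ h1
    exact ⟨i, j, hij, by rw [← ha, Equiv.apply_symm_apply], by rw [← hb, Equiv.apply_symm_apply]⟩

theorem aut_only (τ : H.Aut) {p a : I} (h : H.Only p a) : H.Only (τ.t p) (τ.t a) := by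
  intro p' hp' ⟨b, hb⟩
  have h1 : H.Pr (τ.t.symm p') := aut_pr H (inv H τ) hp'
  have h2 := h _ h1 ⟨τ.t.symm b, by
    rw [← τ.c]
    simpa using hb⟩
  rw [← h2, Equiv.apply_symm_apply]

theorem aut_fam (τ : H.Aut) {p : I} {x : ℕ → I} {s : (k : ℕ) → (Fin k → ℕ) → I}
    (hs : H.Fam p x s) :
    H.Fam (τ.t p) (fun i => τ.t (x i)) (fun k lam => τ.t (s k lam)) := by
  refine ⟨?_, ?_, ?_, ?_, ?_, ?_⟩
  · intro k lam h
    rw [τ.deg, τ.deg, hs.deg k lam h]
  · intro k lam h
    exact aut_only H τ (hs.only k lam h)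
  · intro k lam h mu h' e
    exact hs.inj k lam h mu h' (τ.t.injective e)
  · intro a ha
    have h1 : H.Only p (τ.t.symm a) := by
      have := aut_only H (inv H τ) ha
      simpa [inv] using this
    obtain ⟨k, lam, h, e⟩ := hs.surj _ h1
    exact ⟨k, lam, h, by rw [← e, Equiv.apply_symm_apply]⟩
  · intro k lam h
    rw [aut_jtc, hs.jself k lam h]
  · intro k lam h a ha
    have h1 : H.jtc (fun i => τ.t (x i)) lam (τ.t (τ.t.symm a)) = 0 := by
      rw [aut_jtc]
      refine hs.jne k lam h _ fun e => ha ?_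
      rw [← e, Equiv.apply_symm_apply]
    rwa [Equiv.apply_symm_apply] at h1

/-- **Row A6** -/
theorem rowA6 : RowA6 := by
  intro I H p x s hp hx hs
  exact ⟨fun D hD k lam h => fam_mult H hx hs hD k lam h,
    fun τ => ⟨aut_pr H τ hp, aut_chain H τ hx, aut_fam H τ hs⟩,
    fun s' hs' k lam h => fam_unique H hs hs' k lam h⟩

end Vale.Agent.P275.H510
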