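import Vale.Agent.P275.H341.Gen
import Vale.Agent.P275.H510.A6

/-!
# P275, row C5: the primitive elements are the cuspidal characters
-/

set_option linter.all false

namespace Vale.Agent.P275.H510

open scoped BigOperators MatrixGroups
open Module Matrix Vale.Agent.P275.H85 Vale.Agent.P275.H341

variable {F : Type} [Field F] [Fintype F] [DecidableEq F]

/-- a cuspidal character is no constituent of an induced one -/
theorem ip_cusp_zero {e m n : ℕ} (he : 0 < e) (hm : 0 < m) (hn : m + e = n)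
    {α : GL (Fin e) F → ℂ} {β : GL (Fin m) F → ℂ} {χ : GL (Fin n) F → ℂ}
    (hα : IsClass α) (hβ : IsClass β) (hχ : IsClass χ) (hc : CuspB (toCF χ)) :
    ip (rs n (mul (toCF α) (toCF β))) χ = 0 := by
  have h3 := ip_mul (inv_toCF hα) (inv_toCF hβ) (inv_toCF hχ) (supp_toCF α) (supp_toCF β) hn
  rw [rs_toCF hχ] at h3
  rw [h3]
  have h1 : ∀ x : GL (Fin m) F, rs m (Dop (Fin e → F) (toCF α) (dl (toCF χ))) x = 0 := by
    intro x
    unfold rs Dop
    refine Finset.sum_eq_zero fun a _ => ?_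
    unfold del
    haveI : Nonempty (Fin e) := ⟨⟨0, he⟩⟩
    haveI : Nonempty (Fin m) := ⟨⟨0, hm⟩⟩
    rw [cusp_dl hc (Fin m → F) (Fin e → F) inferInstance inferInstance]
    simp
  simp [h1]

theorem cc_ne {a b x : IrrF F} (h : cc a b x ≠ 0) :
    x.1 = a.1 + b.1 ∧ ip (rs x.1 (mul (toCF a.2.1) (toCF b.2.1))) x.2.1 ≠ 0 := by
  unfold cc at h
  split_ifs at h with h1
  · refine ⟨h1, fun h2 => h ?_⟩
    rw [h2]
    simp
  · exact absurd rfl h

theorem cc_of {a b x : IrrF F} (h1 : x.1 = a.1 + b.1)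
    (h2 : ip (rs x.1 (mul (toCF a.2.1) (toCF b.2.1))) x.2.1 ≠ 0) : cc a b x ≠ 0 := by
  unfold cc
  rw [if_pos h1]
  obtain ⟨k, hk⟩ := (pos_mul_irr (n := x.1) (by rw [h1, add_comm]) a.2.2 b.2.2).2 _ x.2.2
  rw [hk] at h2 ⊢
  simpa using h2

/-- **Row C5** -/
theorem rowC5 : RowC5 := by
  intro F _ _ _ H hC a
  have hz : ∀ b : IrrF F, b.1 = 0 → b = H.one := fun b hb => eq_one H (by rw [hC.deg, hb])
  constructor
  · rintro ⟨h0, h1⟩
    rw [hC.deg] at h0
    by_cases hc : CuspB (toCF a.2.1)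
    · exact ⟨⟨a.1, a.2.1, h0, a.2.2, hc⟩, rfl⟩
    · exfalso
      obtain ⟨e, m, hn, he, hm, α, β, hα, hβ, hip⟩ := exists_parents a.2.2 hc
      have h2 := h1 ⟨e, ⟨α, hα⟩⟩ ⟨m, ⟨β, hβ⟩⟩ (by
        rw [hC.c]
        exact cc_of (by rw [← hn, add_comm]) hip)
      rcases h2 with h2 | h2
      · have h3 : e = H.one.1 := congrArg (fun b : IrrF F => b.1) h2
        rw [hC.one] at h3
        omega
      · have h3 : m = H.one.1 := congrArg (fun b : IrrF F => b.1) h2
        rw [hC.one] at h3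
        omega
  · rintro ⟨c, rfl⟩
    refine ⟨by rw [hC.deg]; exact c.pos, fun x y h => ?_⟩
    rw [hC.c] at h
    obtain ⟨h1, h2⟩ := cc_ne h
    rcases Nat.eq_zero_or_pos x.1 with hx | hx
    · exact Or.inl (hz x hx)
    · rcases Nat.eq_zero_or_pos y.1 with hy | hy
      · exact Or.inr (hz y hy)
      · exact absurd (ip_cusp_zero hx hy ((add_comm _ _).trans h1.symm) x.2.2.isClass y.2.2.isClass
          c.irr.isClass c.cusp) h2

end Vale.Agent.P275.H510
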