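import Vale.Agent.P275.H510.Comp
import Vale.Agent.P275.H341.Gen

/-!
# P275, row C6: the sum of the central characters of all irreducible characters
-/

set_option linter.all false

namespace Vale.Agent.P275.H510

open scoped BigOperators MatrixGroups
open Module Matrix Vale.Agent.P275.H85 Vale.Agent.P275.H341

variable {F : Type} [Field F] [Fintype F] [DecidableEq F] {n : ℕ}

theorem cm_unit_iff (hn : 1 ≤ n) (b : F) : IsUnit (cm n b) ↔ b ≠ 0 := by
  haveI : Nonempty (Fin n) := ⟨⟨0, hn⟩⟩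
  rw [← isUnit_pow_iff (show n ≠ 0 by omega), cm_pow_n]
  constructor
  · rintro h rfl
    rw [zero_smul] at h
    exact not_isUnit_zero h
  · intro h
    rw [← Algebra.algebraMap_eq_smul_one]
    exact (isUnit_iff_ne_zero.mpr h).map _

/-- the companion matrix as an invertible matrix -/
noncomputable def cmU (hn : 1 ≤ n) (b : Fˣ) : GL (Fin n) F := ((cm_unit_iff hn (b : F)).mpr b.ne_zero).unit

theorem cmU_val (hn : 1 ≤ n) (b : Fˣ) : (cmU hn b).val = cm n (b : F) := rfl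

theorem cmU_pow (hn : 1 ≤ n) (b : Fˣ) : cmU hn b ^ n = scal n b := by
  ext1
  rw [Units.val_pow_eq_pow_val, cmU_val, cm_pow_n, D1.scal_val]

theorem scal_comm (c : Fˣ) (g : GL (Fin n) F) : scal n c * g = g * scal n c := by
  ext1
  rw [Units.val_mul, Units.val_mul, D1.scal_val, smul_mul_assoc, mul_smul_comm, one_mul, mul_one]

theorem scal_inj (hn : 1 ≤ n) {b c : Fˣ} (h : (scal n b : GL (Fin n) F) = scal n c) : b = c := by
  have h0 : (scal n b : GL (Fin n) F).val = (scal n c).val := by rw [h]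
  rw [D1.scal_val, D1.scal_val] at h0
  have h1 := congrFun (congrFun h0 ⟨0, hn⟩) ⟨0, hn⟩
  apply Units.ext
  simpa using h1

/-- the diagonal matrix -/
noncomputable def dg (n : ℕ) (ζ : Fˣ) : GL (Fin n) F :=
  Matrix.GeneralLinearGroup.mkOfDetNeZero (Matrix.diagonal (fun i : Fin n => (ζ : F) ^ (i : ℕ))) (by
    rw [Matrix.det_diagonal]
    exact Finset.prod_ne_zero_iff.mpr fun i _ => pow_ne_zero _ ζ.ne_zero)

theorem dg_cm (hn : 1 ≤ n) {ζ : Fˣ} (hζ : orderOf ζ = n) (b : Fˣ) :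
    dg n ζ * cmU hn b * (dg n ζ)⁻¹ * (cmU hn b)⁻¹ = scal n ζ := by
  have h : dg n ζ * cmU hn b = scal n ζ * (cmU hn b * dg n ζ) := by
    ext1
    rw [Units.val_mul, Units.val_mul, Units.val_mul, D1.scal_val, smul_mul_assoc, one_mul, cmU_val]
    have hz : (ζ : F) ^ n = 1 := by
      rw [← Units.val_pow_eq_pow_val, ← hζ, pow_orderOf_eq_one, Units.val_one]
    exact cm_stable hn hz (b : F)
  rw [h]
  group

/-- the number of `A` with `A B = ζ B A` -/
theorem count_B (hn : 1 ≤ n) {ζ : Fˣ} (hζ : orderOf ζ = n) (B : GL (Fin n) F) :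
    (∑ A : GL (Fin n) F, if A * B * A⁻¹ * B⁻¹ = scal n ζ then (1 : ℂ) else 0)
      = ∑ b : Fˣ, ∑ P : GL (Fin n) F, if P * cmU hn b * P⁻¹ = B then (1 : ℂ) else 0 := by
  classical
  by_cases hex : ∃ A₀ : GL (Fin n) F, A₀ * B * A₀⁻¹ * B⁻¹ = scal n ζ
  · obtain ⟨A₀, hA₀⟩ := hex
    have hprim : IsPrimitiveRoot (ζ : F) n := by
      have h1 : IsPrimitiveRoot ζ n := by
        rw [← hζ]
        exact IsPrimitiveRoot.orderOf ζ
      exact IsPrimitiveRoot.coe_units_iff.mpr h1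
    have hAB : A₀ * B = scal n ζ * (B * A₀) := by
      rw [← hA₀]
      group
    have hABm : A₀.val * B.val = (ζ : F) • (B.val * A₀.val) := by
      have h1 := congrArg Units.val hAB
      rw [Units.val_mul, Units.val_mul, Units.val_mul] at h1
      rw [h1, D1.scal_val, smul_mul_assoc, one_mul]
    obtain ⟨b, P, hP, hPB⟩ := exists_conj hn hprim (A := A₀.val) (A' := A₀⁻¹.val) (B := B.val)
      (by rw [← Units.val_mul, mul_inv_cancel, Units.val_one])
      (by rw [← Units.val_mul, inv_mul_cancel, Units.val_one]) hABm B.isUnit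
    have hb : b ≠ 0 := by
      rw [← cm_unit_iff hn]
      have h1 : IsUnit (P * cm n b) := by
        rw [hPB]
        exact B.isUnit.mul hP
      exact (IsUnit.mul_left_iff hP).mp h1
    set b₀ : Fˣ := Units.mk0 b hb with hb₀
    set P₀ : GL (Fin n) F := hP.unit with hP₀
    have h1 : P₀ * cmU hn b₀ * P₀⁻¹ = B := by
      have : P₀ * cmU hn b₀ = B * P₀ := by
        ext1
        rw [Units.val_mul, Units.val_mul]
        exact hPB
      rw [this, mul_inv_cancel_right]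
    have hpow : ∀ (b : Fˣ) (P : GL (Fin n) F), P * cmU hn b * P⁻¹ = B → B ^ n = scal n b := by
      intro b P h
      rw [← h, conj_pow, cmU_pow, ← scal_comm, mul_inv_cancel_right]
    rw [Finset.sum_eq_single b₀]
    · rw [← Equiv.sum_comp ((Equiv.mulLeft A₀⁻¹).trans (Equiv.mulRight P₀))
        (fun P : GL (Fin n) F => if P * cmU hn b₀ * P⁻¹ = B then (1 : ℂ) else 0)]
      refine Finset.sum_congr rfl fun A _ => ?_
      have h2 : A * B * A⁻¹ * B⁻¹ = scal n ζ ↔
          A₀⁻¹ * A * P₀ * cmU hn b₀ * (A₀⁻¹ * A * P₀)⁻¹ = B := by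
        have e1 : A₀⁻¹ * A * P₀ * cmU hn b₀ * (A₀⁻¹ * A * P₀)⁻¹ = A₀⁻¹ * (A * B * A⁻¹) * A₀ := by
          rw [← h1]
          group
        rw [e1, ← hA₀]
        constructor
        · intro h
          have h3 : A * B * A⁻¹ = A₀ * B * A₀⁻¹ := mul_right_cancel h
          rw [h3]
          group
        · intro h
          have h3 : A * B * A⁻¹ = A₀ * B * A₀⁻¹ := by
            calc A * B * A⁻¹ = A₀ * (A₀⁻¹ * (A * B * A⁻¹) * A₀) * A₀⁻¹ := by group
              _ = A₀ * B * A₀⁻¹ := by rw [h]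
          rw [h3]
      show (if A * B * A⁻¹ * B⁻¹ = scal n ζ then (1 : ℂ) else 0) =
        if A₀⁻¹ * A * P₀ * cmU hn b₀ * (A₀⁻¹ * A * P₀)⁻¹ = B then (1 : ℂ) else 0
      simp only [h2]
    · intro b _ hbne
      refine Finset.sum_eq_zero fun P _ => if_neg fun h => hbne ?_
      exact scal_inj hn ((hpow b P h).symm.trans (hpow b₀ P₀ h1))
    · intro h
      exact absurd (Finset.mem_univ _) h
  · push Not at hex
    rw [Finset.sum_eq_zero fun A _ => if_neg (hex A)]
    symm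
    refine Finset.sum_eq_zero fun b _ => Finset.sum_eq_zero fun P _ => if_neg fun h => ?_
    apply hex (P * dg n ζ * P⁻¹)
    rw [← h]
    calc P * dg n ζ * P⁻¹ * (P * cmU hn b * P⁻¹) * (P * dg n ζ * P⁻¹)⁻¹ * (P * cmU hn b * P⁻¹)⁻¹
        = P * (dg n ζ * cmU hn b * (dg n ζ)⁻¹ * (cmU hn b)⁻¹) * P⁻¹ := by group
      _ = P * scal n ζ * P⁻¹ := by rw [dg_cm hn hζ]
      _ = scal n ζ := by rw [← scal_comm, mul_inv_cancel_right]

theorem count (hn : 1 ≤ n) {ζ : Fˣ} (hζ : orderOf ζ = n) :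
    (∑ A : GL (Fin n) F, ∑ B : GL (Fin n) F,
      if A * B * A⁻¹ * B⁻¹ = scal n ζ then (1 : ℂ) else 0)
      = ((Fintype.card F : ℂ) - 1) * Fintype.card (GL (Fin n) F) := by
  classical
  rw [Finset.sum_comm, Finset.sum_congr rfl fun B _ => count_B hn hζ B, Finset.sum_comm]
  have h1 : ∀ b : Fˣ, ∑ B : GL (Fin n) F, ∑ P : GL (Fin n) F,
      (if P * cmU hn b * P⁻¹ = B then (1 : ℂ) else 0) = Fintype.card (GL (Fin n) F) := by
    intro b
    rw [Finset.sum_comm]
    simp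
  rw [Finset.sum_congr rfl fun b _ => h1 b, Finset.sum_const, Finset.card_univ,
    Fintype.card_units, nsmul_eq_mul, Nat.cast_sub Fintype.card_pos, Nat.cast_one]

/-- **Row C6** -/
theorem rowC6 : RowC6 := by
  intro F _ _ _ n hn ζ hζ
  classical
  have h1 := pkgA2 (GL (Fin n) F) 1 (fun _ => 1) (fun _ => 1) 1
    (fun _ => ⟨0, MonoidHom.ext fun g => by rw [MonoidHom.pow_apply, pow_zero]; rfl⟩)
    (fun _ => ⟨0, MonoidHom.ext fun g => by rw [MonoidHom.pow_apply, pow_zero]; rfl⟩) (one_mem _) (scal n ζ)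
  have h2 : (∑ A : Fin 1 → GL (Fin n) F, ∑ B : Fin 1 → GL (Fin n) F,
      if (List.ofFn fun i => A i * B i * (A i)⁻¹ * (B i)⁻¹).prod = scal n ζ then
        ∏ i, ((((1 : GL (Fin n) F →* ℂˣ) (A i) : ℂˣ) : ℂ) *
          (((1 : GL (Fin n) F →* ℂˣ) (B i) : ℂˣ) : ℂ)) else 0)
      = ((Fintype.card F : ℂ) - 1) * Fintype.card (GL (Fin n) F) := by
    rw [← count hn hζ, ← Equiv.sum_comp (Equiv.funUnique (Fin 1) (GL (Fin n) F)).symm]
    refine Finset.sum_congr rfl fun A _ => ?_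
    rw [← Equiv.sum_comp (Equiv.funUnique (Fin 1) (GL (Fin n) F)).symm]
    refine Finset.sum_congr rfl fun B _ => ?_
    simp
  rw [h2] at h1
  have hG : (Fintype.card (GL (Fin n) F) : ℂ) ≠ 0 := by exact_mod_cast Fintype.card_ne_zero
  have h3 : ∀ x y : ℂ, ((Fintype.card (GL (Fin n) F) : ℂ) / x) ^ (2 * 1) * x * y
      = (Fintype.card (GL (Fin n) F) : ℂ) ^ 2 * (y / x) := by
    intro x y
    by_cases hx : x = 0
    · simp [hx]
    · rw [show (2 * 1 : ℕ) = 2 from rfl]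
      field_simp
  have h4 : (irrSet (GL (Fin n) F)).filter
      (fun χ => ∀ g, (((1 : GL (Fin n) F →* ℂˣ) g : ℂˣ) : ℂ) * χ g = χ g)
      = irrSet (GL (Fin n) F) := by
    refine Finset.filter_true_of_mem fun χ _ g => ?_
    simp
  rw [h4, Finset.sum_congr rfl fun χ _ => h3 (χ 1) (χ (scal n ζ)⁻¹), ← Finset.mul_sum] at h1
  have h5 : (Fintype.card (GL (Fin n) F) : ℂ) * (∑ χ ∈ irrSet (GL (Fin n) F), wt χ ζ)
      = (Fintype.card (GL (Fin n) F) : ℂ) * ((Fintype.card F : ℂ) - 1) := by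
    rw [mul_comm _ ((Fintype.card F : ℂ) - 1), h1]
    unfold wt
    field_simp
  exact mul_left_cancel₀ hG h5

end Vale.Agent.P275.H510
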