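import Vale.Agent.P275.H341.Rows

/-!
# Commutativity of parabolic induction
-/

set_option linter.style.haveILetI false
set_option linter.unusedSectionVars false

namespace Vale.Agent.P275.H510

open scoped BigOperators Polynomial
open Module Vale.Agent.P275.H85

section selfdual

variable {F : Type} [Field F]

/-- a functional on `F[X] / (q)` that vanishes on no nonzero ideal -/
theorem exists_functional (q : F[X]) (hq : q ≠ 0) :
    ∃ l : (F[X] ⧸ Ideal.span {q}) →ₗ[F] F,
      ∀ a : F[X] ⧸ Ideal.span {q}, (∀ b, l (a * b) = 0) → a = 0 := by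
  set m : F[X] := q * Polynomial.C q.leadingCoeff⁻¹ with hm
  have hmon : m.Monic := Polynomial.monic_mul_leadingCoeff_inv hq
  have hmem : ∀ x : F[X], x ∈ Ideal.span {q} ↔ m ∣ x := by
    intro x
    rw [Ideal.mem_span_singleton]
    have hu : IsUnit (Polynomial.C q.leadingCoeff⁻¹) :=
      Polynomial.isUnit_C.mpr (isUnit_iff_ne_zero.mpr (inv_ne_zero
        (Polynomial.leadingCoeff_ne_zero.mpr hq)))
    rw [hm]
    exact (hu.mul_right_dvd).symm
  let l0 : F[X] →ₗ[F] F :=
    (Polynomial.lcoeff F (m.natDegree - 1)).comp (Polynomial.modByMonicHom m)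
  have hker : ∀ x ∈ (Ideal.span {q}).restrictScalars F, l0 x = 0 := by
    intro x hx
    have h1 : m ∣ x := (hmem x).mp hx
    have h2 : x %ₘ m = 0 := (Polynomial.modByMonic_eq_zero_iff_dvd hmon).mpr h1
    show (Polynomial.lcoeff F (m.natDegree - 1)) (x %ₘ m) = 0
    rw [h2, map_zero]
  let l : (F[X] ⧸ Ideal.span {q}) →ₗ[F] F :=
    (Submodule.liftQ ((Ideal.span {q}).restrictScalars F) l0 hker).comp
      (Submodule.Quotient.restrictScalarsEquiv F (Ideal.span {q})).symm.toLinearMap
  have hl : ∀ x : F[X], l (Ideal.Quotient.mk _ x) = (x %ₘ m).coeff (m.natDegree - 1) := fun x => rfl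
  refine ⟨l, fun a ha => ?_⟩
  obtain ⟨x, rfl⟩ := Ideal.Quotient.mk_surjective a
  rw [Ideal.Quotient.eq_zero_iff_mem, hmem, ← Polynomial.modByMonic_eq_zero_iff_dvd hmon]
  by_contra hr
  have hdeg : (x %ₘ m).degree < m.degree := Polynomial.degree_modByMonic_lt x hmon
  have hnd : (x %ₘ m).natDegree < m.natDegree :=
    Polynomial.natDegree_lt_natDegree hr hdeg
  have h1 := ha (Ideal.Quotient.mk _ (Polynomial.X ^ (m.natDegree - 1 - (x %ₘ m).natDegree)))
  rw [← map_mul, hl] at h1
  have h2 : (x * Polynomial.X ^ (m.natDegree - 1 - (x %ₘ m).natDegree)) %ₘ m =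
      (x %ₘ m) * Polynomial.X ^ (m.natDegree - 1 - (x %ₘ m).natDegree) := by
    have h3 : x * Polynomial.X ^ (m.natDegree - 1 - (x %ₘ m).natDegree) =
        (x %ₘ m) * Polynomial.X ^ (m.natDegree - 1 - (x %ₘ m).natDegree) +
        m * ((x /ₘ m) * Polynomial.X ^ (m.natDegree - 1 - (x %ₘ m).natDegree)) := by
      nth_rewrite 1 [← Polynomial.modByMonic_add_div x m]
      ring
    have h4 : ((x %ₘ m) * Polynomial.X ^ (m.natDegree - 1 - (x %ₘ m).natDegree)).degree <
        m.degree := by
      rw [Polynomial.degree_eq_natDegree hmon.ne_zero, Polynomial.degree_lt_iff_coeff_zero]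
      intro k hk
      rw [Polynomial.coeff_mul_X_pow', if_pos (by omega)]
      apply Polynomial.coeff_eq_zero_of_natDegree_lt
      omega
    rw [h3, Polynomial.add_modByMonic, (Polynomial.modByMonic_eq_zero_iff_dvd hmon).mpr
      (dvd_mul_right m _), add_zero]
    exact (Polynomial.modByMonic_eq_self_iff hmon).mpr h4
  rw [h2, Polynomial.coeff_mul_X_pow', if_pos (by omega)] at h1
  have h5 : m.natDegree - 1 - (m.natDegree - 1 - (x %ₘ m).natDegree) = (x %ₘ m).natDegree := by
    omega
  rw [h5] at h1
  exact hr (Polynomial.leadingCoeff_eq_zero.mp h1)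

/-- every endomorphism is isomorphic to its transpose -/
theorem self_dual (V : Type) [AddCommGroup V] [Module F V] [FiniteDimensional F V]
    (φ : V →ₗ[F] V) : ∃ e : V ≃ₗ[F] Dual F V, ∀ v, e (φ v) = φ.dualMap (e v) := by
  classical
  obtain ⟨ι, _, p, hp, k, ⟨Ψ⟩⟩ := Module.equiv_directSum_of_isTorsion (R := F[X])
    (M := Module.AEval' φ) (Module.AEval.isTorsion_of_finiteDimensional F V φ)
  choose l hl using fun i => exists_functional (p i ^ k i) (pow_ne_zero _ (hp i).ne_zero)
  let c : ∀ i, V →ₗ[F] (F[X] ⧸ Ideal.span {p i ^ k i}) := fun i =>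
    ((DirectSum.component F[X] ι _ i ∘ₗ Ψ.toLinearMap).restrictScalars F) ∘ₗ
      (Module.AEval'.of φ).toLinearMap
  have hc : ∀ i v, c i v = Ψ (Module.AEval'.of φ v) i := fun i v => rfl
  have hX : ∀ i v, c i (φ v) = (Polynomial.X : F[X]) • c i v := by
    intro i v
    rw [hc, hc, ← Module.AEval'.X_smul_of, map_smul]
    rfl
  let B : V →ₗ[F] V →ₗ[F] F := ∑ i, ((LinearMap.mul F _).compl₁₂ (c i) (c i)).compr₂ (l i)
  have hB : ∀ v w, B v w = ∑ i, l i (c i v * c i w) := by
    intro v w
    simp only [B, LinearMap.sum_apply, LinearMap.compr₂_apply, LinearMap.compl₁₂_apply,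
      LinearMap.mul_apply']
  have hinj : Function.Injective B := by
    rw [injective_iff_map_eq_zero]
    intro v hv
    have h1 : ∀ i, c i v = 0 := by
      intro i
      apply hl i
      intro b
      have h2 := hB v ((Module.AEval'.of φ).symm (Ψ.symm (DirectSum.lof F[X] ι
        (fun i => F[X] ⧸ Ideal.span {p i ^ k i}) i b)))
      rw [hv, LinearMap.zero_apply, Finset.sum_eq_single i] at h2
      · rw [hc i ((Module.AEval'.of φ).symm _), LinearEquiv.apply_symm_apply,
          LinearEquiv.apply_symm_apply, DirectSum.lof_apply] at h2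
        exact h2.symm
      · intro j _ hj
        rw [hc j ((Module.AEval'.of φ).symm _), LinearEquiv.apply_symm_apply,
          LinearEquiv.apply_symm_apply, DirectSum.lof_eq_of, DirectSum.of_eq_of_ne _ _ _ hj,
          mul_zero, map_zero]
      · intro h
        exact absurd (Finset.mem_univ _) h
    have h3 : Ψ (Module.AEval'.of φ v) = 0 := by
      apply DFinsupp.ext
      intro i
      exact h1 i
    rw [map_eq_zero_iff Ψ Ψ.injective] at h3
    exact (map_eq_zero_iff _ (Module.AEval'.of φ).injective).mp h3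
  let e : V ≃ₗ[F] Dual F V :=
    LinearMap.linearEquivOfInjective B hinj (Subspace.dual_finrank_eq).symm
  refine ⟨e, fun v => ?_⟩
  apply LinearMap.ext
  intro w
  show B (φ v) w = B v (φ w)
  rw [hB, hB]
  apply Finset.sum_congr rfl
  intro i _
  rw [hX, hX, smul_mul_assoc, mul_smul_comm]

end selfdual

variable {F : Type} [Field F] [Fintype F]
variable {V : Type} [AddCommGroup V] [Module F V] [FiniteDimensional F V]

/-- a function of pairs is invariant under transposition -/
theorem dual_eq {f : CF F} (hf : IsoInv f) (φ : V →ₗ[F] V) : f (Dual F V) φ.dualMap = f V φ := by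
  obtain ⟨e, he⟩ := self_dual V φ
  exact (hf V (Dual F V) e φ φ.dualMap he).symm

/-- the terms of the product and the annihilators -/
theorem term_dual {f g : CF F} (hf : IsoInv f) (hg : IsoInv g) (φ : V →ₗ[F] V)
    (K : Submodule F V) : term g f φ.dualMap K.dualAnnihilator = term f g φ K := by
  by_cases hK : K ≤ K.comap φ
  · rw [term_of hK, ← dual_eq hf, ← dual_eq hg, mul_comm]
    apply term_exact hg hf K.mkQ.dualMap _ K.subtype.dualMap _ _ _
    · intro u
      apply LinearMap.ext
      intro v
      rfl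
    · intro u
      apply LinearMap.ext
      intro v
      rfl
    · exact LinearMap.dualMap_injective_of_surjective K.mkQ_surjective
    · exact LinearMap.dualMap_surjective_of_injective K.injective_subtype
    · exact K.range_dualMap_mkQ_eq
    · rw [LinearMap.ker_dualMap_eq_dualAnnihilator_range, Submodule.range_subtype]
  · rw [term_of_not hK, term_of_not]
    intro h
    apply hK
    intro x hx
    rw [Submodule.mem_comap, ← Subspace.forall_mem_dualAnnihilator_apply_eq_zero_iff]
    intro ψ hψ
    have h1 := h hψ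
    rw [Submodule.mem_comap, Submodule.mem_dualAnnihilator] at h1
    exact h1 x hx

/-- Row COMM -/
theorem rcomm : H341.RComm := by
  intro F _ _ f g hf hg
  classical
  apply CF_ext
  intro V _ _ _ φ
  rw [← dual_eq (inv_mul hg hf) φ]
  unfold mul
  symm
  refine (Function.Bijective.sum_comp
    (e := fun K : Submodule F V => K.dualAnnihilator) ?_ _).symm.trans ?_
  · exact (Subspace.orderIsoFiniteDimensional (K := F) (V := V)).bijective
  · apply Finset.sum_congr rfl
    intro K _
    exact term_dual hf hg φ K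

end Vale.Agent.P275.H510
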