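import Vale.Agent.P275.H85.D1

/-!
# Pairs of matrices with `A B = ζ B A`: companion matrices of `X ^ n - b`
-/

set_option linter.all false

namespace Vale.Agent.P275.H510

open scoped BigOperators MatrixGroups
open Module Matrix Polynomial Vale.Agent.P275.H85

variable {F : Type} [Field F] {n : ℕ}

/-- the companion matrix of `X ^ n - b` -/
def cm (n : ℕ) (b : F) : Matrix (Fin n) (Fin n) F :=
  Matrix.of fun i j => if (i : ℕ) = j + 1 then 1 else if (j : ℕ) + 1 = n ∧ (i : ℕ) = 0 then b else 0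

theorem cm_apply (b : F) (i j : Fin n) : cm n b i j =
    if (i : ℕ) = j + 1 then 1 else if (j : ℕ) + 1 = n ∧ (i : ℕ) = 0 then b else 0 := rfl

theorem mul_cm (P : Matrix (Fin n) (Fin n) F) (b : F) (i j : Fin n) :
    (P * cm n b) i j = if h : (j : ℕ) + 1 < n then P i ⟨j + 1, h⟩ else
      P i ⟨0, lt_of_le_of_lt (Nat.zero_le _) j.2⟩ * b := by
  rw [Matrix.mul_apply]
  split_ifs with h
  · rw [Finset.sum_eq_single ⟨(j : ℕ) + 1, h⟩]
    · rw [cm_apply, if_pos rfl, mul_one]
    · intro k _ hk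
      rw [cm_apply, if_neg (fun e => hk (Fin.ext e)), if_neg (fun e => by omega), mul_zero]
    · intro h1
      exact absurd (Finset.mem_univ _) h1
  · rw [Finset.sum_eq_single ⟨0, lt_of_le_of_lt (Nat.zero_le _) j.2⟩]
    · rw [cm_apply, if_neg (by simp), if_pos ⟨by have := j.2; omega, rfl⟩]
    · intro k _ hk
      rw [cm_apply, if_neg (fun e => by have := k.2; omega),
        if_neg (fun e => hk (Fin.ext e.2)), mul_zero]
    · intro h1
      exact absurd (Finset.mem_univ _) h1

theorem cm_pow (b : F) (k : ℕ) (hk : k ≤ n) (i j : Fin n) :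
    (cm n b ^ k) i j = if (j : ℕ) + k < n then (if (i : ℕ) = j + k then 1 else 0) else
      if (i : ℕ) + n = j + k then b else 0 := by
  induction k generalizing i j with
  | zero =>
    rw [pow_zero, if_pos (by have := j.2; omega), Matrix.one_apply]
    simp only [add_zero, Fin.ext_iff]
  | succ k ih =>
    rw [pow_succ, mul_cm]
    by_cases h : (j : ℕ) + 1 < n
    · rw [dif_pos h, ih (by omega)]
      simp only
      split_ifs <;> first | rfl | (exfalso; omega)
    · rw [dif_neg h, ih (by omega)]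
      simp only
      split_ifs <;> first | (exfalso; omega) | (rw [one_mul]) | (rw [zero_mul])

theorem cm_pow_n (b : F) : cm n b ^ n = b • (1 : Matrix (Fin n) (Fin n) F) := by
  ext i j
  rw [cm_pow b n le_rfl, if_neg (by omega), Matrix.smul_apply, Matrix.one_apply, smul_eq_mul,
    mul_ite, mul_one, mul_zero]
  simp only [Fin.ext_iff, add_left_inj]

section stable

variable {ζ : F} {A A' B : Matrix (Fin n) (Fin n) F}

theorem cj_pow (h1 : A * A' = 1) (h2 : A' * A = 1) (h : A * B = ζ • (B * A)) (k : ℕ) :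
    A * B ^ k * A' = ζ ^ k • B ^ k := by
  induction k with
  | zero => simp [h1]
  | succ k ih =>
    have e : A * B ^ (k + 1) * A' = (A * B ^ k * A') * (A * B * A') := by
      rw [pow_succ]
      calc A * (B ^ k * B) * A' = A * B ^ k * 1 * B * A' := by noncomm_ring
        _ = A * B ^ k * (A' * A) * B * A' := by rw [h2]
        _ = _ := by noncomm_ring
    rw [e, ih, h, smul_mul_assoc ζ, Matrix.mul_assoc B A A', h1, mul_one, smul_mul_smul_comm,
      ← pow_succ, ← pow_succ]

theorem indep (hn : 1 ≤ n) (hζ : IsPrimitiveRoot ζ n) (h1 : A * A' = 1) (h2 : A' * A = 1)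
    (h : A * B = ζ • (B * A)) (hB : IsUnit B) : LinearIndependent F fun i : Fin n => B ^ (i : ℕ) := by
  haveI : Nonempty (Fin n) := ⟨⟨0, hn⟩⟩
  let T : Module.End F (Matrix (Fin n) (Fin n) F) :=
    (LinearMap.mulRight F A').comp (LinearMap.mulLeft F A)
  refine Module.End.eigenvectors_linearIndependent' T (fun i : Fin n => ζ ^ (i : ℕ)) ?_ _ ?_
  · intro i j hij
    exact Fin.ext (hζ.pow_inj i.2 j.2 hij)
  · intro i
    refine ⟨Module.End.mem_eigenspace_iff.mpr (cj_pow h1 h2 h i), ?_⟩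
    exact (hB.pow _).ne_zero

theorem pow_n (hn : 1 ≤ n) (hζ : IsPrimitiveRoot ζ n) (h1 : A * A' = 1) (h2 : A' * A = 1)
    (h : A * B = ζ • (B * A)) (hB : IsUnit B) : ∃ b : F, B ^ n = b • 1 := by
  have hd : B.charpoly.natDegree = n := by rw [Matrix.charpoly_natDegree_eq_dim, Fintype.card_fin]
  have hm : B.charpoly.coeff n = 1 := by
    have := B.charpoly_monic.coeff_natDegree
    rwa [hd] at this
  have e1 := B.aeval_self_charpoly
  rw [Polynomial.aeval_eq_sum_range, hd, Finset.sum_range_succ, hm, one_smul] at e1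
  have e2 : ∑ i ∈ Finset.range n, (B.charpoly.coeff i * ζ ^ i) • B ^ i + B ^ n = 0 := by
    have := congrArg (fun M => A * M * A') e1
    simp only [mul_add, add_mul, Finset.mul_sum, Finset.sum_mul, mul_zero, zero_mul] at this
    rw [cj_pow h1 h2 h, hζ.pow_eq_one, one_smul] at this
    rw [← this]
    congr 1
    refine Finset.sum_congr rfl fun i _ => ?_
    rw [mul_smul_comm, smul_mul_assoc, cj_pow h1 h2 h, smul_smul]
  have e3 : ∑ i : Fin n, (B.charpoly.coeff i * (1 - ζ ^ (i : ℕ))) • B ^ (i : ℕ) = 0 := by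
    rw [Finset.sum_range] at e1 e2
    have : ∑ i : Fin n, (B.charpoly.coeff i * (1 - ζ ^ (i : ℕ))) • B ^ (i : ℕ)
        = (∑ i : Fin n, B.charpoly.coeff i • B ^ (i : ℕ) + B ^ n) -
          (∑ i : Fin n, (B.charpoly.coeff i * ζ ^ (i : ℕ)) • B ^ (i : ℕ) + B ^ n) := by
      rw [add_sub_add_right_eq_sub, ← Finset.sum_sub_distrib]
      refine Finset.sum_congr rfl fun i _ => ?_
      rw [← sub_smul, mul_sub, mul_one]
    rw [this, e1, e2, sub_zero]
  have hI : LinearIndependent F fun i : Fin n => B ^ (i : ℕ) := indep hn hζ h1 h2 h hB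
  have e4 := Fintype.linearIndependent_iff.mp hI
    (fun i : Fin n => B.charpoly.coeff i * (1 - ζ ^ (i : ℕ))) e3
  have e5 : ∀ i : ℕ, 0 < i → i < n → B.charpoly.coeff i = 0 := by
    intro i h0 hi
    have e6 : B.charpoly.coeff i * (1 - ζ ^ i) = 0 := e4 ⟨i, hi⟩
    rcases mul_eq_zero.mp e6 with e | e
    · exact e
    · have e7 : ζ ^ 0 = ζ ^ i := by rw [pow_zero]; exact sub_eq_zero.mp e
      exact absurd (hζ.pow_inj (by omega) hi e7) h0.ne
  refine ⟨-B.charpoly.coeff 0, ?_⟩
  rw [Finset.sum_eq_single 0] at e1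
  · rw [pow_zero] at e1
    rw [neg_smul]
    exact (neg_eq_of_add_eq_zero_right e1).symm
  · intro i hi h0
    rw [e5 i (Nat.pos_of_ne_zero h0) (Finset.mem_range.mp hi), zero_smul]
  · intro h0
    exact absurd (Finset.mem_range.mpr hn) h0

theorem exists_cyclic (hI : LinearIndependent F fun i : Fin n => B ^ (i : ℕ)) :
    ∃ v : Fin n → F, LinearIndependent F fun i : Fin n => B ^ (i : ℕ) *ᵥ v := by
  let t := Matrix.toLinAlgEquiv' (R := F) (n := Fin n)
  obtain ⟨x, hx⟩ := Module.exists_ker_toSpanSingleton_eq_annihilator F[X] (AEval' (t B))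
  obtain ⟨v, rfl⟩ := (AEval'.of _).surjective x
  refine ⟨v, Fintype.linearIndependent_iff.mpr fun d hd => ?_⟩
  let p : F[X] := ∑ i : Fin n, C (d i) * X ^ (i : ℕ)
  have hp : ∀ w, aeval (t B) p w = ∑ i : Fin n, d i • (B ^ (i : ℕ) *ᵥ w) := by
    intro w
    simp only [p, map_sum, map_mul, aeval_C, map_pow, aeval_X, LinearMap.sum_apply]
    refine Finset.sum_congr rfl fun i _ => ?_
    rw [← map_pow]
    rfl
  have h1 : p ∈ Module.annihilator F[X] (AEval' (t B)) := by
    rw [← hx, LinearMap.mem_ker, LinearMap.toSpanSingleton_apply, ← AEval.of_aeval_smul]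
    have : aeval (t B) p • v = 0 := (hp v).trans hd
    rw [this, map_zero]
  have h2 : ∑ i : Fin n, d i • B ^ (i : ℕ) = 0 := by
    apply t.injective
    rw [map_zero]
    apply LinearMap.ext
    intro w
    have h3 := Module.mem_annihilator.mp h1 (AEval'.of _ w)
    rw [← AEval.of_aeval_smul] at h3
    have h4 : aeval (t B) p w = 0 := (AEval'.of (t B)).injective (by rw [map_zero]; exact h3)
    rw [hp] at h4
    rw [LinearMap.zero_apply, ← h4, map_sum, LinearMap.sum_apply]
    refine Finset.sum_congr rfl fun i _ => ?_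
    rw [map_smul]
    rfl
  exact Fintype.linearIndependent_iff.mp hI d h2

/-- classification of the pairs -/
theorem exists_conj (hn : 1 ≤ n) (hζ : IsPrimitiveRoot ζ n) (h1 : A * A' = 1) (h2 : A' * A = 1)
    (h : A * B = ζ • (B * A)) (hB : IsUnit B) :
    ∃ (b : F) (P : Matrix (Fin n) (Fin n) F), IsUnit P ∧ P * cm n b = B * P := by
  obtain ⟨b, hb⟩ := pow_n hn hζ h1 h2 h hB
  obtain ⟨v, hv⟩ := exists_cyclic (indep hn hζ h1 h2 h hB)
  refine ⟨b, Matrix.of fun i j => (B ^ (j : ℕ) *ᵥ v) i, ?_, ?_⟩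
  · rw [← Matrix.linearIndependent_cols_iff_isUnit]
    exact hv
  · ext i j
    rw [mul_cm, Matrix.mul_apply]
    have e : ∑ k, B i k * (Matrix.of fun i j : Fin n => (B ^ (j : ℕ) *ᵥ v) i) k j
        = (B ^ ((j : ℕ) + 1) *ᵥ v) i := by
      rw [pow_succ', ← Matrix.mulVec_mulVec]
      rfl
    rw [e]
    split_ifs with hj
    · rfl
    · have e2 : (j : ℕ) + 1 = n := by have := j.2; omega
      rw [e2, hb, Matrix.of_apply, pow_zero, Matrix.one_mulVec, Matrix.smul_mulVec, Matrix.one_mulVec,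
        Pi.smul_apply, smul_eq_mul, mul_comm]

end stable

theorem cm_stable (hn : 1 ≤ n) {ζ : F} (hζ : ζ ^ n = 1) (b : F) :
    Matrix.diagonal (fun i : Fin n => ζ ^ (i : ℕ)) * cm n b
      = ζ • (cm n b * Matrix.diagonal (fun i : Fin n => ζ ^ (i : ℕ))) := by
  ext i j
  rw [Matrix.diagonal_mul, Matrix.smul_apply, Matrix.mul_diagonal, smul_eq_mul, cm_apply]
  split_ifs with h h'
  · rw [h]; ring
  · rw [h'.2, pow_zero, one_mul]
    have : ζ * (b * ζ ^ (j : ℕ)) = ζ ^ ((j : ℕ) + 1) * b := by ring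
    rw [this, h'.1, hζ, one_mul]
  · ring

end Vale.Agent.P275.H510
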