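import Vale.Agent.P275.H510.X3b
import Vale.Agent.P275.H633.FixD

/-!
# Row X3
-/

namespace Vale.Agent.P275.H510

open Module Matrix Vale.Agent.P275.H85 Vale.Agent.P275.H341 Vale.Agent.P275.H633

/-- the linear automorphism given by an element of `GL_n` -/
noncomputable def lin {F : Type} [Field F] {n : ℕ} (x : GL (Fin n) F) :
    (Fin n → F) ≃ₗ[F] (Fin n → F) :=
  LinearMap.GeneralLinearGroup.generalLinearEquiv F (Fin n → F)
    (Matrix.GeneralLinearGroup.toLin x)

theorem lin_apply {F : Type} [Field F] {n : ℕ} (x : GL (Fin n) F) (v : Fin n → F) :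
    lin x v = (x : Matrix (Fin n) (Fin n) F).mulVec v := rfl

theorem scalar_mulVec {F : Type} [Field F] {n : ℕ} (c : Fˣ) (v : Fin n → F) :
    ((Matrix.GeneralLinearGroup.scalar (Fin n) c : GL (Fin n) F) :
      Matrix (Fin n) (Fin n) F).mulVec v = (c : F) • v := by
  show (Matrix.scalar (Fin n) (c : F)).mulVec v = (c : F) • v
  ext i
  simp [Matrix.scalar_apply, Matrix.mulVec_diagonal]

theorem pow_lin {F : Type} [Field F] {n : ℕ} (x : GL (Fin n) F) (k : ℕ) (v : Fin n → F) :
    (((lin x).toLinearMap : Module.End F (Fin n → F)) ^ k) v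
      = ((x ^ k : GL (Fin n) F) : Matrix (Fin n) (Fin n) F).mulVec v := by
  induction k generalizing v with
  | zero => simp
  | succ k ih =>
    rw [pow_succ, Module.End.mul_apply, ih, pow_succ, Units.val_mul, ← Matrix.mulVec_mulVec]
    rfl

theorem rowX3 : RowX3 := by
  intro F E _ _ _ _ _ _ _ φ e r n ω c β he hr hn hφ hω hφβ hc h h' hp hp' ⟨a, ha⟩ ⟨a', ha'⟩
  have hω' : IsPrimitiveRoot (ω : F) (e * finrank F E) := by
    rw [← hω, IsPrimitiveRoot.coe_units_iff]
    exact IsPrimitiveRoot.orderOf ω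
  have hφβ' : φ (β : E) = algebraMap F E ((ω : F) ^ e) * (β : E) := hφβ
  have hc' : algebraMap F E (c : F) = (β : E) ^ (e * finrank F E) := by
    have := congrArg (fun u : Eˣ => (u : E)) hc
    simpa [inc] using this
  have hah : ∀ (h a : GL (Fin n) F), a * h = Matrix.GeneralLinearGroup.scalar (Fin n) ω * h * a →
      ∀ v, lin a ((lin h).toLinearMap v) = (ω : F) • (lin h).toLinearMap (lin a v) := by
    intro h a ha v
    show (a : Matrix (Fin n) (Fin n) F).mulVec ((h : Matrix (Fin n) (Fin n) F).mulVec v)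
      = (ω : F) • (h : Matrix (Fin n) (Fin n) F).mulVec ((a : Matrix (Fin n) (Fin n) F).mulVec v)
    rw [Matrix.mulVec_mulVec, ← Units.val_mul, ha, Units.val_mul, Units.val_mul,
      ← Matrix.mulVec_mulVec, ← Matrix.mulVec_mulVec, scalar_mulVec]
  have hpp : ∀ h : GL (Fin n) F,
      h ^ (e * finrank F E) = Matrix.GeneralLinearGroup.scalar (Fin n) c →
      ∀ v, (((lin h).toLinearMap : Module.End F (Fin n → F)) ^ (e * finrank F E)) v
        = (c : F) • v := by
    intro h hp v
    rw [pow_lin, hp, scalar_mulVec]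
  obtain ⟨x, hx⟩ := conj_lin φ e (ω : F) (c : F) (β : E) he β.ne_zero hφ hω' hφβ' hc'
    (lin h).toLinearMap (lin h').toLinearMap (lin a) (lin a') (hah h a ha) (hah h' a' ha')
    (hpp h hp) (hpp h' hp')
  let X : GL (Fin n) F := Matrix.GeneralLinearGroup.toLin.symm
    ((LinearMap.GeneralLinearGroup.generalLinearEquiv F (Fin n → F)).symm x)
  have hX : lin X = x := by
    show LinearMap.GeneralLinearGroup.generalLinearEquiv F (Fin n → F)
      (Matrix.GeneralLinearGroup.toLin (Matrix.GeneralLinearGroup.toLin.symm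
        ((LinearMap.GeneralLinearGroup.generalLinearEquiv F (Fin n → F)).symm x))) = x
    rw [MulEquiv.apply_symm_apply, MulEquiv.apply_symm_apply]
  refine ⟨X, ?_⟩
  rw [mul_inv_eq_iff_eq_mul]
  apply Units.ext
  rw [Units.val_mul, Units.val_mul]
  apply Matrix.toLin'.injective
  refine LinearMap.ext fun v => ?_
  have := hx v
  rw [← hX] at this
  have h2 : (X : Matrix (Fin n) (Fin n) F).mulVec
      ((h : Matrix (Fin n) (Fin n) F).mulVec v)
      = (h' : Matrix (Fin n) (Fin n) F).mulVec
        ((X : Matrix (Fin n) (Fin n) F).mulVec v) := this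
  rw [Matrix.mulVec_mulVec, Matrix.mulVec_mulVec] at h2
  rw [Matrix.toLin'_apply, Matrix.toLin'_apply]
  exact h2

end Vale.Agent.P275.H510
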