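import Mathlib

/-!
# Conjugacy of elements with the same `m`-th power: linear algebra
-/

namespace Vale.Agent.P275.H510

open Module

/-- modules over `F⟮β⟯` of the same dimension are isomorphic -/
theorem modIso {F E U U' : Type} [Field F] [Field E] [Algebra F E] [FiniteDimensional F E]
    (pb : PowerBasis F E) [AddCommGroup U] [Module F U] [FiniteDimensional F U]
    [AddCommGroup U'] [Module F U'] [FiniteDimensional F U']
    (T : Module.End F U) (T' : Module.End F U')
    (hT : Polynomial.aeval T (minpoly F pb.gen) = 0)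
    (hT' : Polynomial.aeval T' (minpoly F pb.gen) = 0)
    (hd : finrank F U = finrank F U') : ∃ θ : U ≃ₗ[F] U', ∀ u, θ (T u) = T' (θ u) := by
  let ρ : E →ₐ[F] Module.End F U := pb.lift T hT
  let ρ' : E →ₐ[F] Module.End F U' := pb.lift T' hT'
  letI : Module E U := Module.compHom U ρ.toRingHom
  letI : Module E U' := Module.compHom U' ρ'.toRingHom
  have hs : ∀ (x : E) (u : U), x • u = ρ x u := fun x u => rfl
  have hs' : ∀ (x : E) (u : U'), x • u = ρ' x u := fun x u => rfl
  haveI : IsScalarTower F E U := ⟨fun a x u => by rw [hs, hs, map_smul]; rfl⟩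
  haveI : IsScalarTower F E U' := ⟨fun a x u => by rw [hs', hs', map_smul]; rfl⟩
  haveI : Module.Finite E U := Module.Finite.of_restrictScalars_finite F E U
  haveI : Module.Finite E U' := Module.Finite.of_restrictScalars_finite F E U'
  have h1 : finrank F E * finrank E U = finrank F U := Module.finrank_mul_finrank F E U
  have h2 : finrank F E * finrank E U' = finrank F U' := Module.finrank_mul_finrank F E U'
  have h3 : finrank E U = finrank E U' := by
    have h0 : 0 < finrank F E := finrank_pos
    apply Nat.eq_of_mul_eq_mul_left h0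
    rw [h1, h2, hd]
  let θ : U ≃ₗ[E] U' := LinearEquiv.ofFinrankEq U U' h3
  refine ⟨θ.restrictScalars F, fun u => ?_⟩
  have e1 : T u = pb.gen • u := by
    rw [hs]
    exact (DFunLike.congr_fun (pb.lift_gen T hT) u).symm
  have e2 : T' (θ u) = pb.gen • θ u := by
    rw [hs']
    exact (DFunLike.congr_fun (pb.lift_gen T' hT') (θ u)).symm
  show θ (T u) = T' (θ u)
  rw [e1, e2, map_smul]

/-- the decomposition of `V` under `h ^ δ` -/
theorem decomp {F V : Type} [Field F] [Finite F] [AddCommGroup V] [Module F V]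
    [FiniteDimensional F V] (h : Module.End F V) (a : V ≃ₗ[F] V) (e δ : ℕ) (ω d : F)
    (he : 1 ≤ e) (hδ : 1 ≤ δ) (hω : IsPrimitiveRoot ω (e * δ)) (hd : d ≠ 0)
    (hah : ∀ v, a (h v) = ω • h (a v)) (hp : ∀ v, (h ^ (e * δ)) v = d ^ e • v) :
    ∃ (V0 : Submodule F V) (T : Module.End F V0) (M : (Fin e → V0) ≃ₗ[F] V),
      (∀ u, (T ^ δ) u = d • u) ∧
        ∀ w, h (M w) = M fun i => ω ^ (i : ℕ) • T (w i) := by
  have hω0 : ω ≠ 0 := hω.ne_zero (Nat.mul_ne_zero (by omega) (by omega))
  have hη : IsPrimitiveRoot (ω ^ δ) e := hω.pow (Nat.mul_pos he hδ) (mul_comm e δ)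
  have he0 : (e : F) ≠ 0 := by
    haveI : NeZero e := ⟨by omega⟩
    haveI := hη.neZero'
    exact NeZero.ne _
  -- commutation
  have c1 : ∀ u, h (a.symm u) = ω • a.symm (h u) := by
    intro u
    have := hah (a.symm u)
    rw [LinearEquiv.apply_symm_apply] at this
    rw [← a.symm.map_smul, ← this, LinearEquiv.symm_apply_apply]
  let s : Module.End F V := a.symm.toLinearMap
  have c1' : ∀ u, h (s u) = ω • s (h u) := c1
  have c2 : ∀ (i : ℕ) u, h ((s ^ i) u) = ω ^ i • (s ^ i) (h u) := by
    intro i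
    induction i with
    | zero => intro u; simp
    | succ i ih =>
      intro u
      rw [pow_succ, Module.End.mul_apply, ih, c1', map_smul, smul_smul, pow_succ,
        Module.End.mul_apply]
  have c3 : ∀ (k i : ℕ) u, (h ^ k) ((s ^ i) u) = (ω ^ i) ^ k • (s ^ i) ((h ^ k) u) := by
    intro k
    induction k with
    | zero => intro i u; simp
    | succ k ih =>
      intro i u
      rw [pow_succ, Module.End.mul_apply, c2, map_smul, ih, smul_smul, Module.End.mul_apply,
        pow_succ, mul_comm]
  have sinj : ∀ i : ℕ, Function.Injective (s ^ i) := by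
    intro i
    induction i with
    | zero => intro x y h; simpa using h
    | succ i ih =>
      intro x y h
      rw [pow_succ, Module.End.mul_apply, Module.End.mul_apply] at h
      exact a.symm.injective (ih h)
  let Y : Module.End F V := h ^ δ
  let V0 : Submodule F V := Y.eigenspace d
  have hV0 : ∀ u, u ∈ V0 ↔ Y u = d • u := fun u => Module.End.mem_eigenspace_iff
  have hinv : ∀ u ∈ V0, h u ∈ V0 := by
    intro u hu
    rw [hV0] at hu ⊢
    have : Y (h u) = h (Y u) := by
      show (h ^ δ) (h u) = h ((h ^ δ) u)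
      rw [← Module.End.mul_apply, ← Module.End.mul_apply, ← pow_succ, ← pow_succ']
    rw [this, hu, map_smul]
  let T : Module.End F V0 := h.restrict hinv
  have hTp : ∀ (k : ℕ) (u : V0), (((T ^ k) u : V0) : V) = (h ^ k) (u : V) := by
    intro k
    induction k with
    | zero => intro u; simp
    | succ k ih =>
      intro u
      rw [pow_succ, Module.End.mul_apply, ih, pow_succ, Module.End.mul_apply]
      rfl
  -- the map
  let M0 : (Fin e → V0) →ₗ[F] V :=
    ∑ i : Fin e, ((s ^ (i : ℕ)).comp V0.subtype).comp (LinearMap.proj i)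
  have hM0 : ∀ w, M0 w = ∑ i : Fin e, (s ^ (i : ℕ)) (w i : V) := by
    intro w
    simp [M0, LinearMap.sum_apply]
  have hmem : ∀ (i : ℕ) (u : V), u ∈ V0 → (s ^ i) u ∈ Y.eigenspace ((ω ^ δ) ^ i * d) := by
    intro i u hu
    rw [Module.End.mem_eigenspace_iff]
    show (h ^ δ) ((s ^ i) u) = _
    rw [c3, (hV0 u).1 hu, map_smul, smul_smul, ← pow_mul, ← pow_mul, mul_comm i δ]
  have hdist : Function.Injective fun i : Fin e => (ω ^ δ) ^ (i : ℕ) * d := by
    intro i j hij
    have := mul_right_cancel₀ hd hij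
    exact Fin.ext (hη.pow_inj i.2 j.2 this)
  have hinj : Function.Injective M0 := by
    rw [injective_iff_map_eq_zero]
    intro w hw
    rw [hM0] at hw
    have hind : iSupIndep fun i : Fin e => Y.eigenspace ((ω ^ δ) ^ (i : ℕ) * d) :=
      Y.eigenspaces_iSupIndep.comp hdist
    have := (iSupIndep_iff_finset_sum_eq_zero_imp_eq_zero _).1 hind Finset.univ
      (fun i => (s ^ (i : ℕ)) (w i : V)) (fun i _ => hmem i _ (w i).2) hw
    funext i
    have hi := this i (Finset.mem_univ i)
    apply Subtype.ext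
    exact sinj i (by rw [hi]; simp)
  have hsurj : Function.Surjective M0 := by
    intro v
    -- the projections
    let μ : ℕ → F := fun i => (ω ^ δ) ^ i * d
    have hμ0 : ∀ i, μ i ≠ 0 := fun i => mul_ne_zero (pow_ne_zero _ (pow_ne_zero _ hω0)) hd
    have hμe : ∀ i, μ i ^ e = d ^ e := by
      intro i
      show ((ω ^ δ) ^ i * d) ^ e = d ^ e
      rw [mul_pow, ← pow_mul, mul_comm i e, pow_mul, hη.pow_eq_one, one_pow, one_mul]
    have hYe : (Y ^ e) v = d ^ e • v := by
      show ((h ^ δ) ^ e) v = _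
      rw [← pow_mul, mul_comm δ e, hp]
    let P : ℕ → V := fun i => ∑ l ∈ Finset.range e, (μ i)⁻¹ ^ l • (Y ^ l) v
    have hP : ∀ i, Y (P i) = μ i • P i := by
      intro i
      have e1 : Y (P i) = μ i • ∑ l ∈ Finset.range e, (μ i)⁻¹ ^ (l + 1) • (Y ^ (l + 1)) v := by
        show Y (∑ l ∈ Finset.range e, (μ i)⁻¹ ^ l • (Y ^ l) v) = _
        rw [map_sum, Finset.smul_sum]
        refine Finset.sum_congr rfl fun l _ => ?_
        rw [map_smul, smul_smul, pow_succ' (μ i)⁻¹, ← mul_assoc, mul_inv_cancel₀ (hμ0 i), one_mul,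
          pow_succ' Y, Module.End.mul_apply]
      rw [e1]
      congr 1
      have e2 := Finset.sum_range_succ (fun l => (μ i)⁻¹ ^ l • (Y ^ l) v) e
      rw [Finset.sum_range_succ'] at e2
      have e3 : (μ i)⁻¹ ^ e • (Y ^ e) v = (μ i)⁻¹ ^ 0 • (Y ^ 0) v := by
        rw [hYe, smul_smul, ← hμe i, inv_pow, inv_mul_cancel₀ (pow_ne_zero _ (hμ0 i)), pow_zero,
          pow_zero, Module.End.one_apply]
      rw [e3] at e2
      exact add_right_cancel e2
    have hPs : ∑ i : Fin e, P i = (e : F) • v := by
      show ∑ i : Fin e, ∑ l ∈ Finset.range e, (μ i)⁻¹ ^ l • (Y ^ l) v = _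
      rw [Finset.sum_comm]
      have : ∀ l ∈ Finset.range e, ∑ i : Fin e, (μ (i : ℕ))⁻¹ ^ l • (Y ^ l) v
          = if l = 0 then (e : F) • v else 0 := by
        intro l hl
        rw [← Finset.sum_smul]
        split_ifs with h0
        · subst h0
          simp
        · have : ∑ i : Fin e, (μ (i : ℕ))⁻¹ ^ l = 0 := by
            rw [Fin.sum_univ_eq_sum_range (fun i => (μ i)⁻¹ ^ l) e]
            have h2 : ∀ i ∈ Finset.range e, (μ i)⁻¹ ^ l
                = (((ω ^ δ)⁻¹) ^ l) ^ i * d⁻¹ ^ l := by
              intro i _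
              show ((ω ^ δ) ^ i * d)⁻¹ ^ l = _
              rw [mul_inv, mul_pow, ← inv_pow, ← pow_mul, ← pow_mul, mul_comm i l]
            rw [Finset.sum_congr rfl h2, ← Finset.sum_mul]
            have h3 : ((ω ^ δ)⁻¹) ^ l ≠ 1 := by
              intro h4
              have h5 : (ω ^ δ) ^ l = 1 := by
                rw [inv_pow] at h4
                exact inv_eq_one.1 h4
              have := hη.dvd_of_pow_eq_one l h5
              have h6 := Nat.le_of_dvd (Nat.pos_of_ne_zero h0) this
              have h7 := Finset.mem_range.1 hl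
              omega
            rw [geom_sum_eq h3]
            have h8 : (((ω ^ δ)⁻¹) ^ l) ^ e = 1 := by
              rw [← pow_mul, mul_comm l e, pow_mul, inv_pow, hη.pow_eq_one, inv_one, one_pow]
            rw [h8, sub_self, zero_div, zero_mul]
          rw [this, zero_smul]
      rw [Finset.sum_congr rfl this, Finset.sum_ite_eq' (Finset.range e) 0]
      rw [if_pos (Finset.mem_range.2 (by omega))]
    -- the preimage
    have hai : ∀ (i : ℕ) (u : V), Y u = μ i • u → ∃ u0 ∈ V0, (s ^ i) u0 = u := by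
      intro i u hu
      have hsu : Function.Surjective (s ^ i) := by
        have : ∀ i : ℕ, Function.Surjective (s ^ i) := by
          intro i
          induction i with
          | zero => intro x; exact ⟨x, by simp⟩
          | succ i ih =>
            intro x
            obtain ⟨y, hy⟩ := ih x
            obtain ⟨z, hz⟩ := a.symm.surjective y
            exact ⟨z, by rw [pow_succ, Module.End.mul_apply]; show (s ^ i) (a.symm z) = x
                         rw [hz, hy]⟩
        exact this i
      obtain ⟨u0, hu0⟩ := hsu u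
      refine ⟨u0, ?_, hu0⟩
      rw [hV0]
      apply sinj i
      have h1 := c3 δ i u0
      rw [hu0] at h1
      have h2 : (h ^ δ) u = μ i • u := hu
      rw [h2, ← hu0] at h1
      have h3 : μ i • (s ^ i) u0 = (ω ^ δ) ^ i • (d • (s ^ i) u0) := by
        rw [smul_smul]
      rw [h3] at h1
      have h4 : (ω ^ i) ^ δ = (ω ^ δ) ^ i := by rw [← pow_mul, ← pow_mul, mul_comm]
      rw [h4] at h1
      have h5 : (ω ^ δ) ^ i ≠ 0 := pow_ne_zero _ (pow_ne_zero _ hω0)
      have h6 := smul_right_injective V h5 h1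
      rw [map_smul]
      exact h6.symm
    choose f hf1 hf2 using fun i : Fin e => hai i (P i) (hP i)
    refine ⟨fun i => (e : F)⁻¹ • (⟨f i, hf1 i⟩ : V0), ?_⟩
    rw [hM0]
    have : ∀ i : Fin e, (s ^ (i : ℕ)) (((e : F)⁻¹ • (⟨f i, hf1 i⟩ : V0) : V0) : V)
        = (e : F)⁻¹ • P i := by
      intro i
      rw [Submodule.coe_smul, map_smul, hf2 i]
    rw [Finset.sum_congr rfl fun i _ => this i, ← Finset.smul_sum, hPs, smul_smul,
      inv_mul_cancel₀ he0, one_smul]
  refine ⟨V0, T, LinearEquiv.ofBijective M0 ⟨hinj, hsurj⟩, fun u => ?_, fun w => ?_⟩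
  · apply Subtype.ext
    rw [hTp]
    exact (hV0 _).1 u.2
  · show h (M0 w) = M0 _
    rw [hM0, hM0, map_sum]
    refine Finset.sum_congr rfl fun i _ => ?_
    rw [c2, Submodule.coe_smul, map_smul]
    rfl

end Vale.Agent.P275.H510
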