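import Vale.Agent.P275.H510.X3a

/-!
# Conjugacy of elements with the same `m`-th power
-/

namespace Vale.Agent.P275.H510

open Module Polynomial

section

variable {F E : Type} [Field F] [Finite F] [Field E] [Finite E] [Algebra F E]

/-- `β` generates `E`, and `β ^ δ` is in `F` -/
theorem betaGen (φ : E ≃ₐ[F] E) (e : ℕ) (ω : F) (β : E) (he : 1 ≤ e) (hβ : β ≠ 0)
    (hφ : orderOf φ = finrank F E) (hω : IsPrimitiveRoot ω (e * finrank F E))
    (hφβ : φ β = algebraMap F E (ω ^ e) * β) :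
    ∃ d : F, algebraMap F E d = β ^ finrank F E ∧
      minpoly F β = X ^ finrank F E - C d ∧
      ∃ pb : PowerBasis F E, pb.gen = β := by
  have hδ : 0 < finrank F E := finrank_pos
  have htop : Subgroup.zpowers φ = ⊤ := by
    apply Subgroup.eq_top_of_card_eq
    rw [Nat.card_zpowers, hφ, IsGalois.card_aut_eq_finrank]
  have hε : IsPrimitiveRoot (ω ^ e) (finrank F E) :=
    hω.pow (Nat.mul_pos he hδ) rfl
  have hpow : ∀ j : ℕ, (φ ^ j) β = algebraMap F E ((ω ^ e) ^ j) * β := by
    intro j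
    induction j with
    | zero => simp
    | succ j ih =>
      rw [pow_succ', AlgEquiv.mul_apply, ih, map_mul, AlgEquiv.commutes, hφβ, ← mul_assoc,
        ← map_mul, pow_succ]
  have hall : ∀ σ : E ≃ₐ[F] E, ∃ j : ℕ, φ ^ j = σ := by
    intro σ
    have h1 : σ ∈ Subgroup.zpowers φ := by rw [htop]; trivial
    exact (mem_powers_iff_mem_zpowers.2 h1)
  -- `β ^ δ` is fixed
  have hfix : ∀ σ : E ≃ₐ[F] E, σ (β ^ finrank F E) = β ^ finrank F E := by
    intro σ
    obtain ⟨j, rfl⟩ := hall σ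
    rw [map_pow, hpow, mul_pow, ← map_pow, ← pow_mul, mul_comm j, pow_mul, hε.pow_eq_one,
      one_pow, map_one, one_mul]
  have hbot : β ^ finrank F E ∈ (⊥ : IntermediateField F E) :=
    (IsGalois.mem_bot_iff_fixed _).2 hfix
  obtain ⟨d, hd⟩ := IntermediateField.mem_bot.1 hbot
  have hprim : IntermediateField.adjoin F {β} = ⊤ := by
    rw [Field.primitive_element_iff_algHom_eq_of_eval' F E
      (fun x => Normal.splits inferInstance x) β]
    intro σ τ hστ
    obtain ⟨j, hj⟩ := hall (AlgEquiv.ofBijective σ (Algebra.IsAlgebraic.algHom_bijective σ))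
    obtain ⟨k, hk⟩ := hall (AlgEquiv.ofBijective τ (Algebra.IsAlgebraic.algHom_bijective τ))
    have hσ : ∀ x, σ x = (φ ^ j) x := fun x => by rw [hj]; rfl
    have hτ : ∀ x, τ x = (φ ^ k) x := fun x => by rw [hk]; rfl
    have h1 : σ β = τ β := hστ
    rw [hσ, hτ, hpow, hpow] at h1
    have h2 := (algebraMap F E).injective (mul_right_cancel₀ hβ h1)
    have h3 : φ ^ j = φ ^ k := by
      have hu : IsUnit (ω ^ e) := hε.isUnit hδ.ne'
      have h4 : hu.unit ^ j = hu.unit ^ k := Units.ext (by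
        rw [Units.val_pow_eq_pow_val, Units.val_pow_eq_pow_val]
        exact h2)
      rw [pow_eq_pow_iff_modEq, ← orderOf_units, hu.unit_spec, ← hε.eq_orderOf] at h4
      rw [pow_eq_pow_iff_modEq, hφ]
      exact h4
    ext x
    rw [hσ, hτ, h3]
  have hnat : (minpoly F β).natDegree = finrank F E :=
    (Field.primitive_element_iff_minpoly_natDegree_eq F β).1 hprim
  have hint : IsIntegral F β := IsIntegral.of_finite F β
  refine ⟨d, hd, ?_, ?_⟩
  · symm
    refine Polynomial.eq_of_monic_of_dvd_of_natDegree_le (minpoly.monic hint)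
      (monic_X_pow_sub_C d hδ.ne') (minpoly.dvd F β ?_) ?_
    · rw [map_sub, map_pow, aeval_X, aeval_C, hd, sub_self]
    · rw [natDegree_X_pow_sub_C, hnat]
  · have h1 : Algebra.adjoin F {β} = ⊤ := by
      rw [← IntermediateField.adjoin_simple_toSubalgebra_of_isAlgebraic hint.isAlgebraic, hprim]
      rfl
    exact ⟨PowerBasis.ofAdjoinEqTop hint h1, rfl⟩

/-- two endomorphisms with the same `m`-th power are conjugate -/
theorem conj_lin (φ : E ≃ₐ[F] E) (e : ℕ) (ω c : F) (β : E) (he : 1 ≤ e) (hβ : β ≠ 0)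
    (hφ : orderOf φ = finrank F E) (hω : IsPrimitiveRoot ω (e * finrank F E))
    (hφβ : φ β = algebraMap F E (ω ^ e) * β)
    (hc : algebraMap F E c = β ^ (e * finrank F E))
    {V : Type} [AddCommGroup V] [Module F V] [FiniteDimensional F V]
    (h h' : Module.End F V) (a a' : V ≃ₗ[F] V)
    (hah : ∀ v, a (h v) = ω • h (a v)) (hah' : ∀ v, a' (h' v) = ω • h' (a' v))
    (hp : ∀ v, (h ^ (e * finrank F E)) v = c • v)
    (hp' : ∀ v, (h' ^ (e * finrank F E)) v = c • v) :
    ∃ x : V ≃ₗ[F] V, ∀ v, x (h v) = h' (x v) := by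
  obtain ⟨d, hd, hmin, pb, hpb⟩ := betaGen φ e ω β he hβ hφ hω hφβ
  have hδ : 1 ≤ finrank F E := finrank_pos
  have hd0 : d ≠ 0 := by
    rintro rfl
    rw [map_zero] at hd
    exact pow_ne_zero _ hβ hd.symm
  have hdc : d ^ e = c := by
    apply (algebraMap F E).injective
    rw [map_pow, hd, hc, ← pow_mul, mul_comm]
  obtain ⟨V0, T, M, hT, hM⟩ := decomp h a e (finrank F E) ω d he hδ hω hd0 hah
    (by intro v; rw [hp, hdc])
  obtain ⟨V0', T', M', hT', hM'⟩ := decomp h' a' e (finrank F E) ω d he hδ hω hd0 hah'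
    (by intro v; rw [hp', hdc])
  have ae : ∀ {U : Type} [AddCommGroup U] [Module F U] (S : Module.End F U),
      (∀ u, (S ^ finrank F E) u = d • u) → aeval S (minpoly F pb.gen) = 0 := by
    intro U _ _ S hS
    rw [hpb, hmin, map_sub, map_pow, aeval_X, aeval_C]
    ext u
    rw [LinearMap.sub_apply, hS, Module.algebraMap_end_apply, sub_self, LinearMap.zero_apply]
  have hdim : finrank F V0 = finrank F V0' := by
    have h1 := M.finrank_eq
    have h2 := M'.finrank_eq
    rw [Module.finrank_pi_fintype] at h1 h2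
    simp only [Finset.sum_const, Finset.card_univ, Fintype.card_fin, smul_eq_mul] at h1 h2
    exact Nat.eq_of_mul_eq_mul_left he (h1.trans h2.symm)
  obtain ⟨θ, hθ⟩ := modIso pb T T' (ae T hT) (ae T' hT') hdim
  let Θ : (Fin e → V0) ≃ₗ[F] (Fin e → V0') := LinearEquiv.piCongrRight fun _ => θ
  refine ⟨(M.symm.trans Θ).trans M', fun v => ?_⟩
  obtain ⟨w, rfl⟩ := M.surjective v
  have e1 : ((M.symm.trans Θ).trans M') (h (M w)) = M' (Θ (M.symm (h (M w)))) := rfl
  have e2 : ((M.symm.trans Θ).trans M') (M w) = M' (Θ (M.symm (M w))) := rfl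
  rw [e1, e2, hM, M.symm_apply_apply, M.symm_apply_apply, hM']
  congr 1
  funext i
  show θ (ω ^ (i : ℕ) • T (w i)) = ω ^ (i : ℕ) • T' (θ (w i))
  rw [map_smul, hθ]

end

end Vale.Agent.P275.H510
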